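import Crest.Agent.X37.Inner.Res
import Crest.Agent.X37.IO.Defs

/-!
# Row 37, inner loop: the interface

For a connected multigraph and a set `F` of its edges the inner loop returns either a positive
definite matrix `D` dominated by the cuts of the graph in which all edges of `F` have small
resistance (`Good`), or natural lengths with a certificate (`Cert`).
-/

set_option autoImplicit false
set_option linter.unusedSectionVars false

open Finset

namespace Crest.Agent.X37.Inner

open Crest.CombinatoricsR.Multigraph Crest.Agent.Lib.PT Crest.Agent.X37.IO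

section abstract

variable {V E : Type*} [Fintype V] [DecidableEq V] [Fintype E]

/-- every proper cut of the graph is non-empty -/
def Conn (src tgt : E → V) : Prop :=
  ∀ S : Finset V, S.Nonempty → S ≠ univ → (cutEdges src tgt univ S).Nonempty

/-- the indicator function of `S` shifted by the constant `c` -/
def ind (S : Finset V) (c : ℝ) : V → ℝ := fun v => (if v ∈ S then 1 else 0) - c

/-- `D` is positive definite, dominated by the cuts of the graph (on suitably shifted indicator
functions), and the edges of `F` have resistance at most `rho` with respect to `D`. -/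
def Good (src tgt : E → V) (F : Finset E) (rho : ℝ) (D : Matrix V V ℝ) : Prop :=
  D.PosDef ∧ (∀ S : Finset V, ∃ c : ℝ, qf D (ind S c) ≤ (cutEdges src tgt univ S).card) ∧
    ∀ e ∈ F, ip D (bv (src e) (tgt e)) (bv (src e) (tgt e)) ≤ rho

/-- natural lengths `l` of total size at most `2 m` with a pseudo-metric `d` below `l` and an
embedding `X` below `d` whose diagonal coordinates on `F` have mass at least `sig * m` -/
def Cert (src tgt : E → V) (F : Finset E) (sig : ℝ) (l : E → ℕ) : Prop :=
  ∑ e, l e ≤ 2 * Fintype.card E ∧
    ∃ (d : V → V → ℝ) (X : V → E → ℝ),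
      (∀ u, d u u = 0) ∧ (∀ u v, d u v = d v u) ∧ (∀ u v w, d u w ≤ d u v + d v w) ∧
      (∀ e, d (src e) (tgt e) ≤ l e) ∧ (∀ u v, ∑ f, (X u f - X v f) ^ 2 ≤ d u v) ∧
      sig * Fintype.card E ≤ ∑ e ∈ F, (X (src e) e - X (tgt e) e) ^ 2

end abstract

/-- the set of edge indices marked by a mask -/
def maskF (m : ℕ) (F : List Bool) : Finset (Fin m) :=
  univ.filter fun i => F.getD i false = true

/-- a list of rows of rationals as a real matrix -/
def matR (n : ℕ) (D : List (List ℚ)) : Matrix (Fin n) (Fin n) ℝ :=
  Matrix.of fun i j => (((D.getD i []).getD j 0 : ℚ) : ℝ)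

/-- **The inner loop.** -/
def InnerStatement : Prop :=
  ∃ inner : Un × List (ℕ × ℕ) × List Bool × ℚ → Bool × List (List ℚ) × List ℕ, PT inner ∧
    ∀ (n : ℕ) (es : List (ℕ × ℕ)) (F : List Bool) (sig : ℚ) (h : Loopless n es),
      0 < sig → Conn (srcF h) (tgtF h) → (maskF es.length F).Nonempty →
      ((inner (⟨n⟩, es, F, sig)).1 = true →
        Good (srcF h) (tgtF h) (maskF es.length F) (35 * sig)
          (matR n (inner (⟨n⟩, es, F, sig)).2.1)) ∧
      ((inner (⟨n⟩, es, F, sig)).1 = false →
        (inner (⟨n⟩, es, F, sig)).2.2.length = es.length ∧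
        Cert (srcF h) (tgtF h) (maskF es.length F) sig
          (fun e => (inner (⟨n⟩, es, F, sig)).2.2.getD e 0))

end Crest.Agent.X37.Inner
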