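import Crest.Agent.X37.Inner.Graph

/-!
# Row 37, inner loop: lightest joining edge sets in polynomial time (Bellman-Ford with masks)
-/

set_option autoImplicit false

open Finset

namespace Crest.Agent.X37.Inner

open Crest.Agent.Lib.PT Crest.Agent.X37.IO

/-- the weight of a mask -/
def lenL (m : ℕ) (w : List ℕ) (P : List Bool) : ℕ :=
  ∑ i ∈ range m, if P.getD i false = true then w.getD i 0 else 0

/-- a mask cut to length `m` -/
def cpE (m : ℕ) (P : List Bool) : List Bool := (List.range m).map fun j => P.getD j false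

/-- a mask with one more edge -/
def addE (m : ℕ) (P : List Bool) (i : ℕ) : List Bool :=
  (List.range m).map fun j => P.getD j false || decide (j = i)

/-- the candidate for the vertex `v` through the edge `i` -/
def cand (es : List (ℕ × ℕ)) (T : List (List Bool)) (v i : ℕ) : List Bool :=
  if (es.getD i (0, 0)).2 = v then addE es.length (T.getD (es.getD i (0, 0)).1 []) i
  else if (es.getD i (0, 0)).1 = v then addE es.length (T.getD (es.getD i (0, 0)).2 []) i
  else cpE es.length (T.getD v [])

/-- all candidates for the vertex `v` -/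
def cands (es : List (ℕ × ℕ)) (T : List (List Bool)) (v : ℕ) : List (List Bool) :=
  cpE es.length (T.getD v []) :: (List.range es.length).map fun i => cand es T v i

/-- the best candidate -/
def pick (es : List (ℕ × ℕ)) (w : List ℕ) (T : List (List Bool)) (v : ℕ) : List Bool :=
  ((cands es T v).argmin fun P => lenL es.length w P).getD []

/-- one round -/
def bfRound (n : ℕ) (es : List (ℕ × ℕ)) (w : List ℕ) (T : List (List Bool)) : List (List Bool) :=
  (List.range n).map fun v => pick es w T v

/-- the starting table -/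
def bfInit (n m u : ℕ) : List (List Bool) :=
  (List.range n).map fun v => if v = u then [] else List.replicate m true

/-- the table of lightest sets from the source `u` -/
def bfTab (n : ℕ) (es : List (ℕ × ℕ)) (w : List ℕ) (u : ℕ) : List (List Bool) :=
  (bfRound n es w)^[n] (bfInit n es.length u)

/-- a lightest set joining `u` and `v` -/
def bf (n : ℕ) (es : List (ℕ × ℕ)) (w : List ℕ) (u v : ℕ) : List Bool :=
  cpE es.length ((bfTab n es w u).getD v [])

theorem getD_map_range {β : Type*} {n i : ℕ} (f : ℕ → β) (d : β) (h : i < n) :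
    ((List.range n).map f).getD i d = f i := by
  simp [List.getD_eq_getElem?_getD, h]

theorem mem_maskF {m : ℕ} {P : List Bool} {i : Fin m} :
    i ∈ maskF m P ↔ P.getD i false = true := by simp [maskF]

theorem lenL_eq (m : ℕ) (w : List ℕ) (P : List Bool) :
    lenL m w P = len (fun e : Fin m => w.getD e 0) (maskF m P) := by
  rw [lenL, len, maskF, sum_filter, Finset.sum_range]

theorem maskF_cpE (m : ℕ) (P : List Bool) : maskF m (cpE m P) = maskF m P := by
  ext i
  rw [mem_maskF, mem_maskF, cpE, getD_map_range _ _ i.2]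

theorem maskF_addE {m : ℕ} (P : List Bool) (i : Fin m) :
    maskF m (addE m P i) = insert i (maskF m P) := by
  ext j
  rw [mem_insert, mem_maskF, mem_maskF, addE, getD_map_range _ _ j.2]
  simp [Fin.ext_iff, or_comm]

theorem maskF_nil (m : ℕ) : maskF m [] = ∅ := by
  ext i; simp [mem_maskF]

theorem maskF_replicate (m : ℕ) : maskF m (List.replicate m true) = univ := by
  ext i; simp [mem_maskF, List.getD_eq_getElem?_getD]

theorem pick_mem (es : List (ℕ × ℕ)) (w : List ℕ) (T : List (List Bool)) (v : ℕ) :
    pick es w T v ∈ cands es T v ∧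
      ∀ P ∈ cands es T v, lenL es.length w (pick es w T v) ≤ lenL es.length w P := by
  unfold pick
  rcases h : (cands es T v).argmin fun P => lenL es.length w P with _ | Q
  · rw [List.argmin_eq_none] at h
    simp [cands] at h
  · exact ⟨List.argmin_mem h, fun P hP => List.le_of_mem_argmin hP h⟩

theorem getD_src {n : ℕ} {es : List (ℕ × ℕ)} (h : Loopless n es) (i : Fin es.length) :
    (es.getD i (0, 0)).1 = srcF h i := by
  simp [srcF, List.getD_eq_getElem?_getD]

theorem getD_tgt {n : ℕ} {es : List (ℕ × ℕ)} (h : Loopless n es) (i : Fin es.length) :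
    (es.getD i (0, 0)).2 = tgtF h i := by
  simp [tgtF, List.getD_eq_getElem?_getD]

theorem best_bf {n : ℕ} {es : List (ℕ × ℕ)} (h : Loopless n es) (hc : Conn (srcF h) (tgtF h))
    (w : List ℕ) (u v : Fin n) :
    Best (srcF h) (tgtF h) (fun e => w.getD e 0) (maskF es.length (bf n es w u v)) u v := by
  set T : ℕ → List (List Bool) := fun k => (bfRound n es w)^[k] (bfInit n es.length u) with hT
  have hstep : ∀ k (v : Fin n), (T (k + 1)).getD v [] = pick es w (T k) v := by
    intro k v
    simp only [hT, Function.iterate_succ_apply']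
    rw [bfRound, getD_map_range _ _ v.2]
  have hcand : ∀ k (v : Fin n) (e : Fin es.length), maskF es.length (cand es (T k) v e) =
      if tgtF h e = v then insert e (maskF es.length ((T k).getD (srcF h e) []))
      else if srcF h e = v then insert e (maskF es.length ((T k).getD (tgtF h e) []))
      else maskF es.length ((T k).getD v []) := by
    intro k v e
    simp only [cand, getD_src h, getD_tgt h, Fin.ext_iff]
    split_ifs
    · exact maskF_addE _ e
    · exact maskF_addE _ e
    · exact maskF_cpE _ _
  have hle : ∀ k (v : Fin n) (e : Fin es.length),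
      len (fun e : Fin es.length => w.getD e 0) (maskF es.length ((T (k + 1)).getD v [])) ≤
        len (fun e : Fin es.length => w.getD e 0) (maskF es.length (cand es (T k) v e)) := by
    intro k v e
    rw [hstep, ← lenL_eq, ← lenL_eq]
    exact (pick_mem es w (T k) v).2 _ (List.mem_cons_of_mem _
      (List.mem_map.2 ⟨e, List.mem_range.2 e.2, rfl⟩))
  have := best_of_rounds (src := srcF h) (tgt := tgtF h) (fun e => w.getD e 0) (u := u)
    (P := fun k v => maskF es.length ((T k).getD v [])) ?_ ?_ ?_ ?_ ?_ ?_ v
  · rw [bf, maskF_cpE]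
    simpa [hT, bfTab] using this
  · simp only [hT, Function.iterate_zero, id]
    rw [bfInit, getD_map_range _ _ u.2, if_pos rfl, maskF_nil]
  · intro v
    simp only [hT, Function.iterate_zero, id]
    rw [bfInit, getD_map_range _ _ v.2]
    split_ifs with hv
    · rw [Fin.ext hv]; exact joins_self _ _
    · rw [maskF_replicate]; exact hc.joins u v
  · intro k v
    simp only [hstep]
    rcases List.mem_cons.1 (pick_mem es w (T k) v).1 with h1 | h1
    · left; rw [h1, maskF_cpE]
    · obtain ⟨i, hi, h2⟩ := List.mem_map.1 h1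
      have h3 := hcand k v ⟨i, List.mem_range.1 hi⟩
      rw [← h2]
      split_ifs at h3 with h4 h5
      · exact Or.inr ⟨_, Or.inl ⟨h4, h3⟩⟩
      · exact Or.inr ⟨_, Or.inr ⟨h5, h3⟩⟩
      · exact Or.inl h3
  · intro k v
    simp only [hstep]
    rw [← maskF_cpE es.length ((T k).getD v []), ← lenL_eq, ← lenL_eq]
    exact (pick_mem es w (T k) v).2 _ List.mem_cons_self
  · intro k e
    have := hle k (tgtF h e) e
    rwa [hcand, if_pos rfl] at this
  · intro k e
    have := hle k (srcF h e) e
    rwa [hcand, if_neg (srcF_ne_tgtF h e).symm, if_pos rfl] at this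

/-! ### polynomial time -/

theorem length_cand (es : List (ℕ × ℕ)) (T : List (List Bool)) (v i : ℕ) :
    (cand es T v i).length = es.length := by
  unfold cand
  split_ifs <;> simp [addE, cpE]

theorem sz_pick_le (es : List (ℕ × ℕ)) (w : List ℕ) (T : List (List Bool)) (v : ℕ) :
    sz (pick es w T v) ≤ 4 * es.length + 1 := by
  refine (sz_boolList_le _).trans ?_
  rcases List.mem_cons.1 (pick_mem es w T v).1 with h1 | h1
  · rw [h1]; simp [cpE]
  · obtain ⟨i, -, h2⟩ := List.mem_map.1 h1
    rw [← h2, length_cand]

theorem sz_bf_le (n : ℕ) (es : List (ℕ × ℕ)) (w : List ℕ) (u v : ℕ) :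
    sz (bf n es w u v) ≤ 4 * es.length + 1 :=
  (sz_boolList_le _).trans (by simp [bf, cpE])

section pt

universe u
variable {α : Type u} [Enc α]

@[fun_prop] theorem lenL_pt {m : α → ℕ} {w : α → List ℕ} {P : α → List Bool} (hm : PT m)
    (hb : PB m) (hw : PT w) (hP : PT P) : PT fun a => lenL (m a) (w a) (P a) := by
  unfold lenL; fun_prop

@[fun_prop] theorem cpE_pt {m : α → ℕ} {P : α → List Bool} (hm : PT m) (hb : PB m) (hP : PT P) :
    PT fun a => cpE (m a) (P a) := by
  unfold cpE; fun_prop

@[fun_prop] theorem addE_pt {m i : α → ℕ} {P : α → List Bool} (hm : PT m) (hb : PB m) (hP : PT P)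
    (hi : PT i) : PT fun a => addE (m a) (P a) (i a) := by
  unfold addE; fun_prop

@[fun_prop] theorem cand_pt {es : α → List (ℕ × ℕ)} {T : α → List (List Bool)} {v i : α → ℕ}
    (hes : PT es) (hT : PT T) (hv : PT v) (hi : PT i) :
    PT fun a => cand (es a) (T a) (v a) (i a) := by
  unfold cand; fun_prop

@[fun_prop] theorem cands_pt {es : α → List (ℕ × ℕ)} {T : α → List (List Bool)} {v : α → ℕ}
    (hes : PT es) (hT : PT T) (hv : PT v) : PT fun a => cands (es a) (T a) (v a) := by
  unfold cands; fun_prop

@[fun_prop] theorem pick_pt {es : α → List (ℕ × ℕ)} {w : α → List ℕ} {T : α → List (List Bool)}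
    {v : α → ℕ} (hes : PT es) (hw : PT w) (hT : PT T) (hv : PT v) :
    PT fun a => pick (es a) (w a) (T a) (v a) := by
  unfold pick; fun_prop

@[fun_prop] theorem bfRound_pt {n : α → ℕ} {es : α → List (ℕ × ℕ)} {w : α → List ℕ}
    {T : α → List (List Bool)} (hn : PT n) (hb : PB n) (hes : PT es) (hw : PT w) (hT : PT T) :
    PT fun a => bfRound (n a) (es a) (w a) (T a) := by
  unfold bfRound; fun_prop

@[fun_prop] theorem bfInit_pt {n m u : α → ℕ} (hn : PT n) (hb : PB n) (hm : PT m) (hb' : PB m)
    (hu : PT u) : PT fun a => bfInit (n a) (m a) (u a) := by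
  unfold bfInit; fun_prop

@[fun_prop] theorem bfTab_pt {n u : α → ℕ} {es : α → List (ℕ × ℕ)} {w : α → List ℕ}
    (hn : PT n) (hb : PB n) (hes : PT es) (hw : PT w) (hu : PT u) :
    PT fun a => bfTab (n a) (es a) (w a) (u a) := by
  unfold bfTab
  refine PT.iterate (f := fun a T => bfRound (n a) (es a) (w a) T) hn hb (by fun_prop)
    (by fun_prop) (B := fun a => n a * (4 * (es a).length + 1 + 1) + 1) (by fun_prop) ?_
  intro a k _
  rcases k with _ | k
  · refine (sz_list_le (B := 4 * (es a).length + 1) fun P hP => ?_).trans (by simp [bfInit])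
    obtain ⟨v, -, rfl⟩ := List.mem_map.1 hP
    refine (sz_boolList_le _).trans ?_
    split_ifs <;> simp
  · rw [Function.iterate_succ_apply']
    refine (sz_list_le (B := 4 * (es a).length + 1) fun P hP => ?_).trans (by simp [bfRound])
    obtain ⟨v, -, rfl⟩ := List.mem_map.1 hP
    exact sz_pick_le _ _ _ _

@[fun_prop] theorem bf_pt {n u v : α → ℕ} {es : α → List (ℕ × ℕ)} {w : α → List ℕ}
    (hn : PT n) (hb : PB n) (hes : PT es) (hw : PT w) (hu : PT u) (hv : PT v) :
    PT fun a => bf (n a) (es a) (w a) (u a) (v a) := by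
  unfold bf; fun_prop

end pt

end Crest.Agent.X37.Inner
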