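import Crest.Agent.X37.Inner.Math
import Crest.Agent.X37.Inner.BF
import Crest.Agent.X37.PT.Inv

/-!
# Row 37, inner loop: the algorithm, its correctness and its running time

The state is the list of the routed pairs with their edge sets.
-/

set_option autoImplicit false

open Finset Matrix

namespace Crest.Agent.X37.Inner

open Crest.Agent.Lib.PT Crest.Agent.X37.IO

/-- routed pairs with their edge sets -/
abbrev St := List (ℕ × ℕ × List Bool)

/-- the load of an edge -/
def loadL (A : St) (i : ℕ) : ℕ := A.countP fun a => a.2.2.getD i false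

/-- the weights -/
def wL (m : ℕ) (A : St) : List ℕ := (List.range m).map fun i => 2 ^ loadL A i

/-- the total weight -/
def totL (m : ℕ) (A : St) : ℕ := ∑ i ∈ range m, 2 ^ loadL A i

/-- entries of the incidence vector of a pair -/
def bq (u v i : ℕ) : ℚ := (if i = u then 1 else 0) - (if i = v then 1 else 0)

/-- entries of the current matrix -/
def matq (es : List (ℕ × ℕ)) (A : St) (i j : ℕ) : ℚ :=
  (c0 es.length : ℚ) * ∑ e ∈ range es.length,
      bq (es.getD e (0, 0)).1 (es.getD e (0, 0)).2 i * bq (es.getD e (0, 0)).1 (es.getD e (0, 0)).2 j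
    + 1 + (A.map fun a => bq a.1 a.2.1 i * bq a.1 a.2.1 j).sum

/-- the inverse of the current matrix -/
noncomputable def invq (n : ℕ) (es : List (ℕ × ℕ)) (A : St) : List (List ℚ) :=
  PT.invL n (PT.tab n n (matq es A))

/-- the bilinear form of a table on two incidence vectors -/
def ipq (G : List (List ℚ)) (a b c d : ℕ) : ℚ :=
  PT.ent G a c - PT.ent G a d - (PT.ent G b c - PT.ent G b d)

/-- resistances -/
def resq (G : List (List ℚ)) (es : List (ℕ × ℕ)) (e : ℕ) : ℚ :=
  ipq G (es.getD e (0, 0)).1 (es.getD e (0, 0)).2 (es.getD e (0, 0)).1 (es.getD e (0, 0)).2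

/-- the power sum -/
def pwq (G : List (List ℚ)) (es : List (ℕ × ℕ)) (F : List Bool) : ℚ :=
  ∑ e ∈ range es.length, if F.getD e false = true then resq G es e ^ (es.length + 2) else 0

/-- the squared distances -/
def yvq (G : List (List ℚ)) (es : List (ℕ × ℕ)) (F : List Bool) (u v : ℕ) : ℚ :=
  ∑ e ∈ range es.length, if F.getD e false = true then
    resq G es e ^ es.length * ipq G (es.getD e (0, 0)).1 (es.getD e (0, 0)).2 u v ^ 2 else 0

/-- the test for a pair -/
def bad (n : ℕ) (es : List (ℕ × ℕ)) (F : List Bool) (sig : ℚ) (G : List (List ℚ)) (w : List ℕ)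
    (W : ℕ) (p : ℕ × ℕ) : Bool :=
  decide (pwq G es F * (lenL es.length w (bf n es w p.1 p.2) : ℚ) < yvq G es F p.1 p.2 * sig * W)

/-- a violated pair -/
noncomputable def viol (n : ℕ) (es : List (ℕ × ℕ)) (F : List Bool) (sig : ℚ) (A : St) :
    Option (ℕ × ℕ) :=
  ((List.range n).product (List.range n)).find?
    (bad n es F sig (invq n es A) (wL es.length A) (totL es.length A))

/-- one step -/
noncomputable def stepL (n : ℕ) (es : List (ℕ × ℕ)) (F : List Bool) (sig : ℚ) (A : St) : St :=
  if totL es.length A < es.length * 2 ^ c0 es.length then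
    (viol n es F sig A).elim A fun p => (p.1, p.2, bf n es (wL es.length A) p.1 p.2) :: A
  else A

/-- the final state -/
noncomputable def runL (n : ℕ) (es : List (ℕ × ℕ)) (F : List Bool) (sig : ℚ) : St :=
  (stepL n es F sig)^[es.length * (c0 es.length + es.length) + 1] []

/-- the output read from a state -/
def outL (n : ℕ) (es : List (ℕ × ℕ)) (A : St) : Bool × List (List ℚ) × List ℕ :=
  (decide (es.length * 2 ^ c0 es.length ≤ totL es.length A),
    PT.tab n n fun i j => (3 * c0 es.length : ℚ)⁻¹ * matq es A i j,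
    (List.range es.length).map fun i => es.length * 2 ^ loadL A i / totL es.length A + 1)

/-- the inner loop -/
noncomputable def inner (a : Un × List (ℕ × ℕ) × List Bool × ℚ) : Bool × List (List ℚ) × List ℕ :=
  outL a.1.n a.2.1 (runL a.1.n a.2.1 a.2.2.1 a.2.2.2)

/-! ### correctness -/

section correct

variable {n : ℕ} {es : List (ℕ × ℕ)}

/-- the real matrix of a state -/
def MA (n : ℕ) (es : List (ℕ × ℕ)) (A : St) : Matrix (Fin n) (Fin n) ℝ := PT.matR n (matq es A)

/-- the loads of a state -/
def LA (m : ℕ) (A : St) : Fin m → ℕ := fun e => loadL A e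

theorem cast_bq (u v i : Fin n) : ((bq u v i : ℚ) : ℝ) = bv u v i := by
  simp only [bq, bv, Pi.sub_apply, Pi.single_apply, Fin.ext_iff]
  split_ifs <;> simp

theorem MA_nil (h : Loopless n es) : MA n es [] = M0 (srcF h) (tgtF h) := by
  ext i j
  simp only [MA, PT.matR_apply, matq, M0, List.map_nil, List.sum_nil, add_zero, Matrix.add_apply,
    Matrix.smul_apply, Matrix.sum_apply, vecMulVec_apply, Fintype.card_fin, smul_eq_mul, mul_one,
    Finset.sum_range, getD_src h, getD_tgt h]
  push_cast
  simp only [cast_bq, be]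

theorem MA_cons (u v : Fin n) (P : List Bool) (A : St) :
    MA n es (((u : ℕ), (v : ℕ), P) :: A) = MA n es A + vecMulVec (bv u v) (bv u v) := by
  ext i j
  simp only [MA, PT.matR_apply, matq, List.map_cons, List.sum_cons, Matrix.add_apply,
    vecMulVec_apply]
  push_cast
  simp only [cast_bq]
  ring

theorem LA_nil (m : ℕ) : LA m [] = fun _ => 0 := by
  ext e; simp [LA, loadL]

theorem LA_cons (m u v : ℕ) (P : List Bool) (A : St) :
    LA m ((u, v, P) :: A) = bump (LA m A) (maskF m P) := by
  ext e
  simp only [LA, loadL, bump, List.countP_cons, mem_maskF]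

theorem totL_eq (m : ℕ) (A : St) : totL m A = len (wt (LA m A)) univ := by
  rw [totL, Finset.sum_range]; rfl

theorem wL_eq (m : ℕ) (A : St) : (fun e : Fin m => (wL m A).getD e 0) = wt (LA m A) := by
  ext e
  rw [wL, getD_map_range _ _ e.2]; rfl

theorem cast_ipq (A : St) (a b c d : Fin n) :
    ((ipq (invq n es A) a b c d : ℚ) : ℝ) = ip (MA n es A) (bv a b) (bv c d) := by
  have h : ∀ i j : Fin n, ((PT.ent (invq n es A) i j : ℚ) : ℝ) = (MA n es A)⁻¹ i j := by
    intro i j
    rw [invq, PT.ent_invL_tab, PT.cast_invF]; rfl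
  rw [ip, bv_dot]
  simp only [ipq, mulVec, dot_bv]
  push_cast
  simp only [h]

theorem cast_resq (h : Loopless n es) (A : St) (e : Fin es.length) :
    ((resq (invq n es A) es e : ℚ) : ℝ) = res (srcF h) (tgtF h) (MA n es A) e := by
  rw [resq, getD_src h, getD_tgt h, cast_ipq]; rfl

theorem cast_pwq (h : Loopless n es) (F : List Bool) (A : St) :
    ((pwq (invq n es A) es F : ℚ) : ℝ) =
      pw (srcF h) (tgtF h) (maskF es.length F) (MA n es A) (Fintype.card (Fin es.length) + 2) := by
  rw [pwq, pw, maskF, sum_filter, Finset.sum_range, Fintype.card_fin]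
  push_cast
  refine sum_congr rfl fun e _ => ?_
  split_ifs
  · rw [Rat.cast_pow, cast_resq h]
  · simp

theorem cast_yvq (h : Loopless n es) (F : List Bool) (A : St) (u v : Fin n) :
    ((yvq (invq n es A) es F u v : ℚ) : ℝ) =
      yv (srcF h) (tgtF h) (maskF es.length F) (MA n es A) (Fintype.card (Fin es.length)) u v := by
  rw [yvq, yv, maskF, sum_filter, Finset.sum_range, Fintype.card_fin]
  push_cast
  refine sum_congr rfl fun e _ => ?_
  split_ifs
  · rw [Rat.cast_mul, Rat.cast_pow, Rat.cast_pow, cast_resq h, getD_src h, getD_tgt h, cast_ipq]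
    rfl
  · simp

theorem bad_iff (h : Loopless n es) (F : List Bool) (sig : ℚ) (A : St) (u v : Fin n) :
    bad n es F sig (invq n es A) (wL es.length A) (totL es.length A) (u, v) = true ↔
      pw (srcF h) (tgtF h) (maskF es.length F) (MA n es A) (Fintype.card (Fin es.length) + 2) *
          len (wt (LA es.length A)) (maskF es.length (bf n es (wL es.length A) u v)) <
        yv (srcF h) (tgtF h) (maskF es.length F) (MA n es A) (Fintype.card (Fin es.length)) u v *
          sig * len (wt (LA es.length A)) univ := by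
  rw [bad, decide_eq_true_iff, ← cast_pwq h, ← cast_yvq h, lenL_eq, wL_eq, totL_eq]
  exact_mod_cast Iff.rfl

theorem run_inv (h : Loopless n es) (hc : Conn (srcF h) (tgtF h)) (hE : 0 < es.length)
    (F : List Bool) {sig : ℚ} (hsig : 0 < sig) (k : ℕ) :
    Inv (srcF h) (tgtF h) (maskF es.length F) sig (MA n es ((stepL n es F sig)^[k] []))
        (LA es.length ((stepL n es F sig)^[k] [])) ∧
      (¬ totL es.length ((stepL n es F sig)^[k] []) < es.length * 2 ^ c0 es.length ∨
        viol n es F sig ((stepL n es F sig)^[k] []) = none ∨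
        k ≤ ∑ e, LA es.length ((stepL n es F sig)^[k] []) e) := by
  have hE' : 0 < Fintype.card (Fin es.length) := by simpa using hE
  have hsig' : (0 : ℝ) < sig := by exact_mod_cast hsig
  induction k with
  | zero =>
    refine ⟨?_, Or.inr (Or.inr (Nat.zero_le _))⟩
    rw [Function.iterate_zero, id, MA_nil h, LA_nil]
    exact inv_init hc hE' hsig'.le
  | succ k ih =>
    rw [Function.iterate_succ_apply']
    generalize (stepL n es F sig)^[k] [] = A at ih ⊢
    obtain ⟨hI, hk⟩ := ih
    by_cases hW : totL es.length A < es.length * 2 ^ c0 es.length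
    · rcases hv : viol n es F sig A with _ | p
      · have : stepL n es F sig A = A := by rw [stepL, if_pos hW, hv]; rfl
        rw [this]
        exact ⟨hI, Or.inr (Or.inl hv)⟩
      · have hmem := List.mem_of_find?_eq_some hv
        have hbad := List.find?_some hv
        obtain ⟨u, v⟩ := p
        rw [List.pair_mem_product, List.mem_range, List.mem_range] at hmem
        lift u to Fin n using hmem.1
        lift v to Fin n using hmem.2
        have : stepL n es F sig A = ((u : ℕ), (v : ℕ), bf n es (wL es.length A) u v) :: A := by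
          rw [stepL, if_pos hW, hv]; rfl
        rw [this, MA_cons, LA_cons]
        have hb := best_bf h hc (wL es.length A) u v
        have hs := hI.step hc hE' hsig' (by rw [← totL_eq, Fintype.card_fin]; exact hW) hb.1
          ((bad_iff h F sig A u v).1 hbad)
        refine ⟨hs.1, Or.inr (Or.inr ?_)⟩
        rw [sum_bump]
        have h1 := hs.2.card_pos
        have h2 : k ≤ ∑ e, LA es.length A e :=
          (hk.resolve_left fun h => h hW).resolve_left (by rw [hv]; simp)
        omega
    · have : stepL n es F sig A = A := by rw [stepL, if_neg hW]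
      rw [this]
      exact ⟨hI, Or.inl hW⟩

theorem matR_outL (A : St) :
    matR n (outL n es A).2.1 = (3 * c0 (Fintype.card (Fin es.length)) : ℝ)⁻¹ • MA n es A := by
  ext i j
  have : matR n (outL n es A).2.1 i j = ((PT.ent (outL n es A).2.1 i j : ℚ) : ℝ) := rfl
  rw [this]
  simp only [outL, PT.ent_tab_fin, Fintype.card_fin, Matrix.smul_apply, MA, PT.matR_apply,
    smul_eq_mul]
  push_cast
  rfl

theorem inner_spec (F : List Bool) (sig : ℚ) (h : Loopless n es) (hsig : 0 < sig)
    (hc : Conn (srcF h) (tgtF h)) (hF : (maskF es.length F).Nonempty) :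
    ((inner (⟨n⟩, es, F, sig)).1 = true →
        Good (srcF h) (tgtF h) (maskF es.length F) (35 * sig)
          (matR n (inner (⟨n⟩, es, F, sig)).2.1)) ∧
      ((inner (⟨n⟩, es, F, sig)).1 = false →
        (inner (⟨n⟩, es, F, sig)).2.2.length = es.length ∧
        Cert (srcF h) (tgtF h) (maskF es.length F) sig
          (fun e => (inner (⟨n⟩, es, F, sig)).2.2.getD e 0)) := by
  have hE : 0 < es.length := hF.choose.pos
  have hE' : 0 < Fintype.card (Fin es.length) := by simpa using hE
  have hsig' : (0 : ℝ) < sig := by exact_mod_cast hsig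
  obtain ⟨hI, hk⟩ := run_inv h hc hE F hsig (es.length * (c0 es.length + es.length) + 1)
  have hin : inner (⟨n⟩, es, F, sig) = outL n es (runL n es F sig) := rfl
  rw [hin]
  change Inv _ _ _ _ (MA n es (runL n es F sig)) (LA _ (runL n es F sig)) at hI
  change ¬ totL _ (runL n es F sig) < _ ∨ viol _ _ _ _ (runL n es F sig) = none ∨
    _ ≤ ∑ e, LA _ (runL n es F sig) e at hk
  generalize runL n es F sig = A at hI hk ⊢
  constructor
  · intro h1
    rw [matR_outL]
    refine hI.good hE' hsig' ?_
    rw [← totL_eq, Fintype.card_fin]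
    simpa [outL] using h1
  · intro h1
    have hW : totL es.length A < es.length * 2 ^ c0 es.length := by simpa [outL] using h1
    refine ⟨by simp [outL], ?_⟩
    have hv : viol n es F sig A = none := by
      refine ((hk.resolve_left fun h => h hW).resolve_right fun h2 => ?_)
      have := sum_load_le (load := LA es.length A) (by rw [← totL_eq, Fintype.card_fin]; exact hW)
      rw [Fintype.card_fin] at this
      omega
    have h2 : (fun e : Fin es.length => (outL n es A).2.2.getD e 0) = rlen (LA es.length A) := by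
      ext e
      simp only [outL]
      rw [getD_map_range _ _ e.2, rlen, ← totL_eq, Fintype.card_fin]; rfl
    rw [h2]
    refine cert_of hI.pd (srcF_ne_tgtF h) hF hsig'
      (P := fun u v => maskF es.length (bf n es (wL es.length A) u v)) (fun u v => ?_)
      fun u v => ?_
    · rw [← wL_eq]; exact best_bf h hc _ u v
    · rw [viol, List.find?_eq_none] at hv
      have := hv (u, v) (List.pair_mem_product.2 ⟨List.mem_range.2 u.2, List.mem_range.2 v.2⟩)
      rw [bad_iff h] at this
      exact not_lt.1 this

end correct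

/-! ### polynomial time -/

section pt

universe u
variable {α : Type u} [Enc α]

@[fun_prop] theorem c0_pt {m : α → ℕ} (hm : PT m) : PT fun a => c0 (m a) := by
  unfold c0; fun_prop

@[fun_prop] theorem c0_pb {m : α → ℕ} (hm : PB m) : PB fun a => c0 (m a) := by
  unfold c0; fun_prop

@[fun_prop] theorem loadL_pt {A : α → St} {i : α → ℕ} (hA : PT A) (hi : PT i) :
    PT fun a => loadL (A a) (i a) := by
  unfold loadL; fun_prop

@[fun_prop] theorem loadL_pb {A : α → St} {i : α → ℕ} (hA : PT A) :
    PB fun a => loadL (A a) (i a) :=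
  PB.of_le_length hA fun _ => List.countP_le_length

@[fun_prop] theorem wL_pt {A : α → St} {m : α → ℕ} (hm : PT m) (hb : PB m) (hA : PT A) :
    PT fun a => wL (m a) (A a) := by
  unfold wL; fun_prop

@[fun_prop] theorem totL_pt {A : α → St} {m : α → ℕ} (hm : PT m) (hb : PB m) (hA : PT A) :
    PT fun a => totL (m a) (A a) := by
  unfold totL; fun_prop

@[fun_prop] theorem bq_pt {u v i : α → ℕ} (hu : PT u) (hv : PT v) (hi : PT i) :
    PT fun a => bq (u a) (v a) (i a) := by
  unfold bq; fun_prop

@[fun_prop] theorem matq_pt {es : α → List (ℕ × ℕ)} {A : α → St} {i j : α → ℕ} (hes : PT es)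
    (hA : PT A) (hi : PT i) (hj : PT j) : PT fun a => matq (es a) (A a) (i a) (j a) := by
  unfold matq; fun_prop

@[fun_prop] theorem invq_pt {n : α → ℕ} {es : α → List (ℕ × ℕ)} {A : α → St} (hn : PT n)
    (hb : PB n) (hes : PT es) (hA : PT A) : PT fun a => invq (n a) (es a) (A a) := by
  unfold invq; fun_prop

@[fun_prop] theorem ipq_pt {G : α → List (List ℚ)} {a b c d : α → ℕ} (hG : PT G) (ha : PT a)
    (hb : PT b) (hc : PT c) (hd : PT d) : PT fun x => ipq (G x) (a x) (b x) (c x) (d x) := by
  unfold ipq; fun_prop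

@[fun_prop] theorem resq_pt {G : α → List (List ℚ)} {es : α → List (ℕ × ℕ)} {e : α → ℕ}
    (hG : PT G) (hes : PT es) (he : PT e) : PT fun x => resq (G x) (es x) (e x) := by
  unfold resq; fun_prop

@[fun_prop] theorem pwq_pt {G : α → List (List ℚ)} {es : α → List (ℕ × ℕ)} {F : α → List Bool}
    (hG : PT G) (hes : PT es) (hF : PT F) : PT fun x => pwq (G x) (es x) (F x) := by
  unfold pwq; fun_prop

@[fun_prop] theorem yvq_pt {G : α → List (List ℚ)} {es : α → List (ℕ × ℕ)} {F : α → List Bool}
    {u v : α → ℕ} (hG : PT G) (hes : PT es) (hF : PT F) (hu : PT u) (hv : PT v) :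
    PT fun x => yvq (G x) (es x) (F x) (u x) (v x) := by
  unfold yvq; fun_prop

@[fun_prop] theorem bad_pt {n W : α → ℕ} {es : α → List (ℕ × ℕ)} {F : α → List Bool} {sig : α → ℚ}
    {G : α → List (List ℚ)} {w : α → List ℕ} {p : α → ℕ × ℕ} (hn : PT n) (hb : PB n)
    (hes : PT es) (hF : PT F) (hs : PT sig) (hG : PT G) (hw : PT w) (hW : PT W) (hp : PT p) :
    PT fun x => bad (n x) (es x) (F x) (sig x) (G x) (w x) (W x) (p x) := by
  unfold bad; fun_prop

@[fun_prop] theorem viol_pt {n : α → ℕ} {es : α → List (ℕ × ℕ)} {F : α → List Bool} {sig : α → ℚ}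
    {A : α → St} (hn : PT n) (hb : PB n) (hes : PT es) (hF : PT F) (hs : PT sig) (hA : PT A) :
    PT fun x => viol (n x) (es x) (F x) (sig x) (A x) := by
  unfold viol
  exact PT.find? (by fun_prop) (by fun_prop)

@[fun_prop] theorem stepL_pt {n : α → ℕ} {es : α → List (ℕ × ℕ)} {F : α → List Bool} {sig : α → ℚ}
    {A : α → St} (hn : PT n) (hb : PB n) (hes : PT es) (hF : PT F) (hs : PT sig) (hA : PT A) :
    PT fun x => stepL (n x) (es x) (F x) (sig x) (A x) := by
  unfold stepL; fun_prop

theorem sz_stepL_le (n : ℕ) (es : List (ℕ × ℕ)) (F : List Bool) (sig : ℚ) (A : St) :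
    sz (stepL n es F sig A) ≤ sz A + (8 * n + 4 * es.length + 10) := by
  unfold stepL
  split_ifs
  · rcases hv : viol n es F sig A with _ | ⟨u, v⟩
    · simp
    · have hmem := List.mem_of_find?_eq_some hv
      rw [List.pair_mem_product, List.mem_range, List.mem_range] at hmem
      have h1 := sz_nat_le_self u
      have h2 := sz_nat_le_self v
      have h3 := sz_bf_le n es (wL es.length A) u v
      simp only [Option.elim_some, sz_cons, sz_mk]
      omega
  · omega

@[fun_prop] theorem runL_pt {n : α → ℕ} {es : α → List (ℕ × ℕ)} {F : α → List Bool} {sig : α → ℚ}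
    (hn : PT n) (hb : PB n) (hes : PT es) (hF : PT F) (hs : PT sig) :
    PT fun x => runL (n x) (es x) (F x) (sig x) := by
  unfold runL
  exact PT.iterate_grow (f := fun x A => stepL (n x) (es x) (F x) (sig x) A) (by fun_prop)
    (by fun_prop) (by fun_prop) (by fun_prop)
    (G := fun x => 8 * n x + 4 * (es x).length + 10) (by fun_prop) fun x A => sz_stepL_le _ _ _ _ _

@[fun_prop] theorem outL_pt {n : α → ℕ} {es : α → List (ℕ × ℕ)} {A : α → St}
    (hn : PT n) (hb : PB n) (hes : PT es) (hA : PT A) : PT fun x => outL (n x) (es x) (A x) := by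
  unfold outL; fun_prop

end pt

attribute [irreducible] outL

theorem inner_pt : PT inner := by
  unfold inner
  exact outL_pt (by fun_prop) (by fun_prop) (by fun_prop)
    (runL_pt (by fun_prop) (by fun_prop) (by fun_prop) (by fun_prop) (by fun_prop))

/-- **The inner loop.** -/
theorem innerStatement : InnerStatement :=
  ⟨inner, inner_pt, fun _ _ F sig h hsig hc hF => inner_spec F sig h hsig hc hF⟩

end Crest.Agent.X37.Inner
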