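import Crest.Agent.X37.Inner.Defs

/-!
# Row 37, inner loop: edge sets joining two vertices, and the growth lemma
-/

set_option autoImplicit false
set_option linter.unusedSectionVars false

open Finset

namespace Crest.Agent.X37.Inner

open Crest.CombinatoricsR.Multigraph

variable {V E : Type*} [Fintype V] [DecidableEq V] [Fintype E] [DecidableEq E]

/-- every set of vertices containing `u` but not `v` is left by an edge of `P` -/
def Joins (src tgt : E → V) (P : Finset E) (u v : V) : Prop :=
  ∀ S : Finset V, u ∈ S → v ∉ S → (cutEdges src tgt P S).Nonempty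

variable {src tgt : E → V}

theorem mem_cutEdges {P : Finset E} {S : Finset V} {e : E} :
    e ∈ cutEdges src tgt P S ↔
      e ∈ P ∧ ((src e ∈ S ∧ tgt e ∉ S) ∨ (src e ∉ S ∧ tgt e ∈ S)) := by
  simp [cutEdges]

theorem Joins.mono {P Q : Finset E} {u v : V} (h : Joins src tgt P u v) (hPQ : P ⊆ Q) :
    Joins src tgt Q u v := fun S hu hv => by
  obtain ⟨e, he⟩ := h S hu hv
  rw [mem_cutEdges] at he
  exact ⟨e, mem_cutEdges.2 ⟨hPQ he.1, he.2⟩⟩

theorem joins_self (P : Finset E) (u : V) : Joins src tgt P u u := fun _ hu hv => (hv hu).elim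

theorem Joins.symm {P : Finset E} {u v : V} (h : Joins src tgt P u v) : Joins src tgt P v u :=
  fun S hv hu => by
    obtain ⟨e, he⟩ := h Sᶜ (by simpa using hu) (by simpa using hv)
    rw [mem_cutEdges] at he
    refine ⟨e, mem_cutEdges.2 ⟨he.1, ?_⟩⟩
    simp only [mem_compl, not_not] at he
    tauto

theorem Joins.trans {P Q : Finset E} {u v w : V} (h : Joins src tgt P u v)
    (h' : Joins src tgt Q v w) : Joins src tgt (P ∪ Q) u w := fun S hu hw => by
  by_cases hv : v ∈ S
  · exact (h'.mono subset_union_right) S hv hw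
  · exact (h.mono subset_union_left) S hu hv

theorem joins_edge (e : E) : Joins src tgt {e} (src e) (tgt e) := fun _ hu hv =>
  ⟨e, mem_cutEdges.2 ⟨mem_singleton_self e, Or.inl ⟨hu, hv⟩⟩⟩

theorem Conn.joins (h : Conn src tgt) (u v : V) : Joins src tgt univ u v := fun S hu hv =>
  h S ⟨u, hu⟩ fun hS => hv (hS ▸ mem_univ v)

theorem Joins.nonempty {P : Finset E} {u v : V} (h : Joins src tgt P u v) (huv : u ≠ v) :
    P.Nonempty := by
  obtain ⟨e, he⟩ := h {u} (mem_singleton_self u) (by simpa using huv.symm)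
  exact ⟨e, (mem_cutEdges.1 he).1⟩

/-- **Growth lemma**: a quantity that grows by at most the weight of an edge along the edge, one
edge per round, is bounded after `card V` rounds by the weight of any joining set. -/
theorem grow {g : ℕ → V → ℝ} {wt : E → ℝ} (hwt : ∀ e, 0 ≤ wt e) {u : V} (h0 : g 0 u ≤ 0)
    (h1 : ∀ k w, g (k + 1) w ≤ g k w) (h2 : ∀ k e, g (k + 1) (tgt e) ≤ g k (src e) + wt e)
    (h3 : ∀ k e, g (k + 1) (src e) ≤ g k (tgt e) + wt e)
    {Q : Finset E} {v : V} (hQ : Joins src tgt Q u v) :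
    g (Fintype.card V) v ≤ ∑ e ∈ Q, wt e := by
  have key : ∀ k, ∃ S : Finset V, u ∈ S ∧ (k + 1 ≤ S.card ∨ ¬ (cutEdges src tgt Q S).Nonempty) ∧
      ∀ w ∈ S, g k w ≤ ∑ e ∈ Q.filter (fun e => src e ∈ S ∧ tgt e ∈ S), wt e := by
    intro k
    induction k with
    | zero =>
      refine ⟨{u}, mem_singleton_self u, Or.inl (by simp), fun w hw => ?_⟩
      rw [mem_singleton.1 hw]
      exact h0.trans (sum_nonneg fun e _ => hwt e)
    | succ k ih =>
      obtain ⟨S, hu, hc, hg⟩ := ih
      by_cases hcut : (cutEdges src tgt Q S).Nonempty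
      · obtain ⟨e, he⟩ := hcut
        have hk : k + 1 ≤ S.card := hc.resolve_right fun h => h ⟨e, he⟩
        rw [mem_cutEdges] at he
        have step : ∀ a b : V, a ∈ S → b ∉ S → ((src e = a ∧ tgt e = b) ∨ (src e = b ∧ tgt e = a)) →
            g (k + 1) b ≤ g k a + wt e →
            ∃ S : Finset V, u ∈ S ∧ (k + 1 + 1 ≤ S.card ∨ ¬ (cutEdges src tgt Q S).Nonempty) ∧
              ∀ w ∈ S, g (k + 1) w ≤ ∑ e ∈ Q.filter (fun e => src e ∈ S ∧ tgt e ∈ S), wt e := by
          intro a b ha hb hab hstep
          have hne : e ∉ Q.filter (fun e => src e ∈ S ∧ tgt e ∈ S) := by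
            simp only [mem_filter, not_and]
            rintro - h1 h2
            rcases hab with ⟨-, h⟩ | ⟨h, -⟩
            · exact hb (h ▸ h2)
            · exact hb (h ▸ h1)
          have hsub : insert e (Q.filter (fun e => src e ∈ S ∧ tgt e ∈ S)) ⊆
              Q.filter (fun e => src e ∈ insert b S ∧ tgt e ∈ insert b S) := by
            intro f hf
            rcases mem_insert.1 hf with rfl | hf
            · refine mem_filter.2 ⟨he.1, ?_⟩
              rcases hab with ⟨h, h'⟩ | ⟨h, h'⟩ <;> rw [h, h'] <;> simp [ha]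
            · rw [mem_filter] at hf ⊢
              exact ⟨hf.1, mem_insert_of_mem hf.2.1, mem_insert_of_mem hf.2.2⟩
          have hle := sum_le_sum_of_subset_of_nonneg (f := wt) hsub fun e _ _ => hwt e
          rw [sum_insert hne] at hle
          refine ⟨insert b S, mem_insert_of_mem hu, Or.inl ?_, fun w hw => ?_⟩
          · rw [card_insert_of_notMem hb]; omega
          · rcases mem_insert.1 hw with rfl | hw
            · have := hg a ha; linarith
            · have := hg w hw; have := h1 k w; have := hwt e; linarith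
        rcases he.2 with ⟨ha, hb⟩ | ⟨hb, ha⟩
        · exact step _ _ ha hb (Or.inl ⟨rfl, rfl⟩) (h2 k e)
        · exact step _ _ ha hb (Or.inr ⟨rfl, rfl⟩) (h3 k e)
      · exact ⟨S, hu, Or.inr hcut, fun w hw => (h1 k w).trans (hg w hw)⟩
  obtain ⟨S, hu, hc, hg⟩ := key (Fintype.card V)
  have hc' : ¬ (cutEdges src tgt Q S).Nonempty := hc.resolve_left fun h => by
    have := card_le_univ S; omega
  have hv : v ∈ S := by
    by_contra hv
    exact hc' (hQ S hu hv)
  exact (hg v hv).trans
    (sum_le_sum_of_subset_of_nonneg (filter_subset _ _) fun e _ _ => hwt e)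

theorem Joins.abs_sub_le {Q : Finset E} {u v : V} (hQ : Joins src tgt Q u v) (x : V → ℝ) :
    |x u - x v| ≤ ∑ e ∈ Q, |x (src e) - x (tgt e)| := by
  refine grow (g := fun _ w => |x u - x w|) (fun e => abs_nonneg _) (by simp) (fun _ _ => le_rfl)
    (fun _ e => _root_.abs_sub_le _ _ _) (fun _ e => ?_) hQ
  rw [abs_sub_comm (x (src e))]
  exact _root_.abs_sub_le _ _ _

theorem Conn.sq_sub_le (h : Conn src tgt) (x : V → ℝ) (u v : V) :
    (x u - x v) ^ 2 ≤ Fintype.card E * ∑ e, (x (src e) - x (tgt e)) ^ 2 := by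
  have h1 := (h.joins u v).abs_sub_le x
  have h2 := sq_sum_le_card_mul_sum_sq (s := (univ : Finset E))
    (f := fun e => |x (src e) - x (tgt e)|)
  simp only [sq_abs, card_univ] at h2
  calc (x u - x v) ^ 2 = |x u - x v| ^ 2 := (sq_abs _).symm
    _ ≤ (∑ e, |x (src e) - x (tgt e)|) ^ 2 := by gcongr
    _ ≤ _ := h2

/-- the weight of a set of edges -/
def len (w : E → ℕ) (P : Finset E) : ℕ := ∑ e ∈ P, w e

theorem len_union_le (w : E → ℕ) (P Q : Finset E) : len w (P ∪ Q) ≤ len w P + len w Q := by
  unfold len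
  rw [← sum_union_inter]; omega

theorem len_insert_le (w : E → ℕ) (P : Finset E) (e : E) : len w (insert e P) ≤ len w P + w e := by
  have := len_union_le w {e} P
  rw [← insert_eq] at this
  simp only [len, sum_singleton] at this ⊢
  omega

/-- `P` is a lightest set of edges joining `u` and `v` -/
def Best (src tgt : E → V) (w : E → ℕ) (P : Finset E) (u v : V) : Prop :=
  Joins src tgt P u v ∧ ∀ Q, Joins src tgt Q u v → len w P ≤ len w Q

/-- Bellman-Ford with edge sets. -/
theorem best_of_rounds (w : E → ℕ) {u : V} {P : ℕ → V → Finset E} (h0 : P 0 u = ∅)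
    (h0' : ∀ v, Joins src tgt (P 0 v) u v)
    (hs : ∀ k v, P (k + 1) v = P k v ∨ ∃ e, (tgt e = v ∧ P (k + 1) v = insert e (P k (src e))) ∨
      (src e = v ∧ P (k + 1) v = insert e (P k (tgt e))))
    (h1 : ∀ k v, len w (P (k + 1) v) ≤ len w (P k v))
    (h2 : ∀ k e, len w (P (k + 1) (tgt e)) ≤ len w (insert e (P k (src e))))
    (h3 : ∀ k e, len w (P (k + 1) (src e)) ≤ len w (insert e (P k (tgt e)))) (v : V) :
    Best src tgt w (P (Fintype.card V) v) u v := by
  constructor
  · have : ∀ k v, Joins src tgt (P k v) u v := by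
      intro k
      induction k with
      | zero => exact h0'
      | succ k ih =>
        intro v
        rcases hs k v with h | ⟨e, ⟨he, h⟩ | ⟨he, h⟩⟩
        · rw [h]; exact ih v
        · rw [h, ← he, insert_eq, union_comm]; exact (ih _).trans (joins_edge e)
        · rw [h, ← he, insert_eq, union_comm]; exact (ih _).trans (joins_edge e).symm
    exact this _ v
  · intro Q hQ
    have := grow (g := fun k v => (len w (P k v) : ℝ)) (wt := fun e => (w e : ℝ))
      (fun e => Nat.cast_nonneg _) (u := u) (by simp [h0, len])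
      (fun k v => by exact_mod_cast h1 k v)
      (fun k e => by exact_mod_cast (h2 k e).trans (len_insert_le w _ e))
      (fun k e => by exact_mod_cast (h3 k e).trans (len_insert_le w _ e)) hQ
    unfold len at this ⊢
    exact_mod_cast this

end Crest.Agent.X37.Inner
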