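import Crest.Agent.X37.Inner.Graph

/-!
# Row 37, inner loop: the invariant, one step, and the two outcomes
-/

set_option autoImplicit false
set_option linter.unusedSectionVars false

open Finset Matrix

namespace Crest.Agent.X37.Inner

open Crest.CombinatoricsR.Multigraph

variable {V E : Type*} [Fintype V] [DecidableEq V] [Fintype E] [DecidableEq E]

/-- incidence vector of an edge -/
def be (src tgt : E → V) (e : E) : V → ℝ := bv (src e) (tgt e)

/-- resistance of an edge -/
noncomputable def res (src tgt : E → V) (M : Matrix V V ℝ) (e : E) : ℝ :=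
  ip M (be src tgt e) (be src tgt e)

/-- power sums of the resistances on `F` -/
noncomputable def pw (src tgt : E → V) (F : Finset E) (M : Matrix V V ℝ) (p : ℕ) : ℝ :=
  ∑ e ∈ F, res src tgt M e ^ p

/-- the squared distance of `u` and `v` in the embedding -/
noncomputable def yv (src tgt : E → V) (F : Finset E) (M : Matrix V V ℝ) (q : ℕ) (u v : V) : ℝ :=
  ∑ e ∈ F, res src tgt M e ^ q * ip M (be src tgt e) (bv u v) ^ 2

/-- the starting multiple of the Laplacian -/
def c0 (m : ℕ) : ℕ := m * (m + 1)

/-- weights `2 ^ load` -/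
def wt (load : E → ℕ) (e : E) : ℕ := 2 ^ load e

/-- the starting matrix -/
def M0 (src tgt : E → V) : Matrix V V ℝ :=
  (c0 (Fintype.card E) : ℝ) • ∑ e, vecMulVec (be src tgt e) (be src tgt e) +
    vecMulVec (fun _ => 1) (fun _ => 1)

/-- the `p`-norm of the resistances, `p = m + 1` -/
noncomputable def phi (src tgt : E → V) (F : Finset E) (M : Matrix V V ℝ) : ℝ :=
  pw src tgt F M (Fintype.card E + 1) ^ ((Fintype.card E + 1 : ℕ) : ℝ)⁻¹

/-- the loop invariant -/
structure Inv (src tgt : E → V) (F : Finset E) (sig : ℝ) (M : Matrix V V ℝ) (load : E → ℕ) :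
    Prop where
  pd : M.PosDef
  low : ∀ x, (c0 (Fintype.card E) : ℝ) * ∑ e, (x (src e) - x (tgt e)) ^ 2 ≤ qf M x
  cut : ∀ S : Finset V, qf M (ind S (S.card / Fintype.card V)) ≤
    ∑ e ∈ cutEdges src tgt univ S, ((c0 (Fintype.card E) : ℝ) + load e)
  pot : phi src tgt F M * Real.log (len (wt load) univ / Fintype.card E) ≤ 8 * sig
  tot : len (wt load) univ ≤ 2 * (Fintype.card E * 2 ^ c0 (Fintype.card E))

variable {src tgt : E → V} {F : Finset E} {sig : ℝ} {M : Matrix V V ℝ} {load : E → ℕ}

theorem res_nonneg (hM : M.PosDef) (e : E) : 0 ≤ res src tgt M e := ip_nonneg hM _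

theorem pw_nonneg (hM : M.PosDef) (p : ℕ) : 0 ≤ pw src tgt F M p :=
  sum_nonneg fun e _ => pow_nonneg (res_nonneg hM e) p

theorem yv_nonneg (hM : M.PosDef) (q : ℕ) (u v : V) : 0 ≤ yv src tgt F M q u v :=
  sum_nonneg fun e _ => mul_nonneg (pow_nonneg (res_nonneg hM e) q) (sq_nonneg _)

theorem yv_self (q : ℕ) (u : V) : yv src tgt F M q u u = 0 := by
  simp [yv, ip]

theorem phi_nonneg (hM : M.PosDef) : 0 ≤ phi src tgt F M :=
  Real.rpow_nonneg (pw_nonneg hM _) _

theorem phi_pow (hM : M.PosDef) :
    phi src tgt F M ^ (Fintype.card E + 1) = pw src tgt F M (Fintype.card E + 1) :=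
  Real.rpow_inv_natCast_pow (pw_nonneg hM _) (Nat.succ_ne_zero _)

theorem res_le_phi (hM : M.PosDef) {e : E} (he : e ∈ F) : res src tgt M e ≤ phi src tgt F M := by
  refine le_of_pow_le_pow_left₀ (Nat.succ_ne_zero (Fintype.card E)) (phi_nonneg hM) ?_
  rw [phi_pow hM]
  exact single_le_sum (f := fun e => res src tgt M e ^ (Fintype.card E + 1))
    (fun e _ => pow_nonneg (res_nonneg hM e) _) he

theorem ind_sub_sq (S : Finset V) (c : ℝ) (u v : V) :
    (ind S c u - ind S c v) ^ 2 = if (u ∈ S ∧ v ∉ S) ∨ (u ∉ S ∧ v ∈ S) then 1 else 0 := by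
  unfold ind
  by_cases hu : u ∈ S <;> by_cases hv : v ∈ S <;> simp [hu, hv]
  right; ring

theorem sum_ind_sub_sq (S : Finset V) (c : ℝ) (P : Finset E) :
    ∑ e ∈ P, (ind S c (src e) - ind S c (tgt e)) ^ 2 = (cutEdges src tgt P S).card := by
  simp only [ind_sub_sq, cutEdges]
  rw [sum_ite, sum_const_zero, add_zero, sum_const, nsmul_eq_mul, mul_one]

theorem sum_ind_center (S : Finset V) : ∑ v, ind S (S.card / Fintype.card V) v = 0 := by
  rcases isEmpty_or_nonempty V with h | h
  · simp
  · have : (Fintype.card V : ℝ) ≠ 0 := by positivity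
    simp only [ind, sum_sub_distrib, sum_const, card_univ, nsmul_eq_mul]
    rw [sum_ite_mem, univ_inter, sum_const, nsmul_eq_mul, mul_one]
    field_simp
    ring

theorem qf_M0 (x : V → ℝ) : qf (M0 src tgt) x =
    c0 (Fintype.card E) * ∑ e, (x (src e) - x (tgt e)) ^ 2 + (∑ v, x v) ^ 2 := by
  rw [M0, qf_add, qf_smul, qf_sum, qf_vecMulVec]
  simp only [qf_vecMulVec, be, bv_dot]
  simp [dotProduct]

theorem card_le_len (load : E → ℕ) : Fintype.card E ≤ len (wt load) univ := by
  rw [len, ← card_univ, card_eq_sum_ones]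
  exact sum_le_sum fun e _ => Nat.one_le_two_pow

theorem inv_init (hc : Conn src tgt) (hE : 0 < Fintype.card E) (hsig : 0 ≤ sig) :
    Inv src tgt F sig (M0 src tgt) (fun _ => 0) := by
  have hc0 : (0 : ℝ) < c0 (Fintype.card E) := by unfold c0; positivity
  have hlen : len (wt fun _ : E => 0) univ = Fintype.card E := by simp [len, wt]
  refine ⟨?_, fun x => ?_, fun S => ?_, ?_, ?_⟩
  · refine posDef_of_qf ?_ fun x hx => ?_
    · simp only [M0, transpose_add, transpose_smul, transpose_sum, transpose_vecMulVec]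
    · rw [qf_M0]
      have h1 : 0 ≤ ∑ e, (x (src e) - x (tgt e)) ^ 2 := sum_nonneg fun _ _ => sq_nonneg _
      rcases h1.eq_or_lt with h1 | h1
      · obtain ⟨u, hu⟩ := Function.ne_iff.1 hx
        have h2 : ∀ v, x v = x u := fun v => by
          have := hc.sq_sub_le x v u
          rw [← h1, mul_zero] at this
          nlinarith [sq_nonneg (x v - x u)]
        have h3 : ∑ v, x v = Fintype.card V * x u := by simp [h2]
        have : Nonempty V := ⟨u⟩
        have h4 : (0 : ℝ) < Fintype.card V := by exact_mod_cast Fintype.card_pos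
        have h5 : x u ≠ 0 := hu
        rw [← h1, h3]
        positivity
      · positivity
  · rw [qf_M0]; nlinarith [sq_nonneg (∑ v, x v)]
  · rw [qf_M0, sum_ind_center, sum_ind_sub_sq]
    simp [mul_comm]
  · have : (Fintype.card E : ℝ) ≠ 0 := by positivity
    rw [hlen, div_self this, Real.log_one, mul_zero]; positivity
  · rw [hlen]
    have : 1 ≤ 2 ^ c0 (Fintype.card E) := Nat.one_le_two_pow
    nlinarith

/-- `(R - t) ^ (q + 1) ≤ R ^ (q + 1) - (q + 1) / 2 * R ^ q * t` for small `t` -/
theorem sub_pow_le {R t : ℝ} (q : ℕ) (ht : 0 ≤ t) (h : (q + 1) * t ≤ R) :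
    (R - t) ^ (q + 1) ≤ R ^ (q + 1) - (q + 1) / 2 * (R ^ q * t) := by
  have hq : (0 : ℝ) ≤ q := Nat.cast_nonneg q
  have hR : 0 ≤ R := le_trans (by positivity) h
  rcases hR.eq_or_lt with hR | hR
  · have : t = 0 := by nlinarith
    simp [this]
  · set x := t / R with hx
    have hx0 : 0 ≤ x := by positivity
    have hx1 : (q + 1) * x ≤ 1 := by
      rw [hx, ← mul_div_assoc, div_le_one hR]; exact h
    have hx2 : x ≤ 1 := by nlinarith
    have htx : t = R * x := by rw [hx]; field_simp
    have h1 : 1 + ((q + 1 : ℕ) : ℝ) * x ≤ (1 + x) ^ (q + 1) :=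
      one_add_mul_le_pow (by linarith) _
    have h2 : (1 - x) ^ (q + 1) * (1 + x) ^ (q + 1) ≤ 1 := by
      rw [← mul_pow]
      exact pow_le_one₀ (by nlinarith) (by nlinarith)
    have h3 : 0 ≤ (1 - x) ^ (q + 1) := pow_nonneg (by linarith) _
    push_cast at h1
    have h4 : (1 - x) ^ (q + 1) * (1 + (q + 1) * x) ≤ 1 := le_trans (by gcongr) h2
    have h5 : (1 - x) ^ (q + 1) ≤ 1 - (q + 1) / 2 * x := by
      have hy : 0 ≤ (q + 1) * x := by positivity
      by_contra hcon
      push Not at hcon
      have : (1 - (q + 1) / 2 * x) * (1 + (q + 1) * x) < (1 - x) ^ (q + 1) * (1 + (q + 1) * x) :=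
        mul_lt_mul_of_pos_right hcon (by linarith)
      nlinarith
    calc (R - t) ^ (q + 1) = R ^ (q + 1) * (1 - x) ^ (q + 1) := by
          rw [← mul_pow, htx]; congr 1; ring
      _ ≤ R ^ (q + 1) * (1 - (q + 1) / 2 * x) := by gcongr
      _ = _ := by rw [htx]; ring

theorem pw_update (hM : M.PosDef) (q : ℕ) (u v : V)
    (h : (q + 1) * ip M (bv u v) (bv u v) ≤ 1) :
    pw src tgt F (M + vecMulVec (bv u v) (bv u v)) (q + 1) ≤
      pw src tgt F M (q + 1) - (q + 1) / 4 * yv src tgt F M q u v := by
  rw [pw, pw, yv, mul_sum, ← sum_sub_distrib]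
  refine sum_le_sum fun e _ => ?_
  have hq : (0 : ℝ) ≤ q := Nat.cast_nonneg q
  have hr := ip_nonneg hM (bv u v)
  have hR := res_nonneg (src := src) (tgt := tgt) hM e
  have hcs := ip_sq_le hM (be src tgt e) (bv u v)
  rw [res, ip_add_vecMulVec hM]
  change (res src tgt M e - _) ^ _ ≤ _
  change _ ≤ res src tgt M e * _ at hcs
  set R := res src tgt M e
  set r := ip M (bv u v) (bv u v)
  set b := ip M (be src tgt e) (bv u v) ^ 2 with hb
  have hb0 : 0 ≤ b := sq_nonneg _
  have hr1 : r ≤ 1 := by nlinarith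
  have h1 : b / (1 + r) ≤ b := div_le_self hb0 (by linarith)
  have h2 : b / 2 ≤ b / (1 + r) := div_le_div_of_nonneg_left hb0 (by linarith) (by linarith)
  refine (sub_pow_le q (by positivity) ?_).trans ?_
  · calc (q + 1) * (b / (1 + r)) ≤ (q + 1) * (R * r) := by gcongr; exact h1.trans hcs
      _ = R * ((q + 1) * r) := by ring
      _ ≤ R * 1 := by gcongr
      _ = R := mul_one R
  · have : (q + 1) / 2 * (R ^ q * (b / 2)) ≤ (q + 1) / 2 * (R ^ q * (b / (1 + r))) := by gcongr
    linarith

/-- the power mean inequality in the form used -/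
theorem pw_mul_phi_le (hM : M.PosDef) :
    pw src tgt F M (Fintype.card E + 1) * phi src tgt F M ≤
      2 * pw src tgt F M (Fintype.card E + 2) := by
  set p := Fintype.card E + 1 with hp
  have hp0 : (0 : ℝ) < p := by positivity
  have h := Real.rpow_sum_le_const_mul_sum_rpow_of_nonneg F
    (f := fun e => res src tgt M e ^ p) (p := 1 + (p : ℝ)⁻¹)
    (by have := inv_pos.2 hp0; linarith) (fun e _ => pow_nonneg (res_nonneg hM e) p)
  have h1 : (∑ e ∈ F, res src tgt M e ^ p) ^ (1 + (p : ℝ)⁻¹) =
      pw src tgt F M p * phi src tgt F M := by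
    change pw src tgt F M p ^ _ = _
    rw [Real.rpow_add' (pw_nonneg hM p) (by positivity), Real.rpow_one]; rfl
  have h2 : ∑ e ∈ F, (res src tgt M e ^ p) ^ (1 + (p : ℝ)⁻¹) =
      pw src tgt F M (Fintype.card E + 2) := by
    refine sum_congr rfl fun e _ => ?_
    have hR := res_nonneg (src := src) (tgt := tgt) hM e
    rw [Real.rpow_add' (pow_nonneg hR p) (by positivity), Real.rpow_one,
      Real.pow_rpow_inv_natCast hR (by omega), hp]
    ring
  have h3 : (F.card : ℝ) ^ (1 + (p : ℝ)⁻¹ - 1) ≤ 2 := by
    rw [add_sub_cancel_left]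
    have : (F.card : ℝ) ≤ 2 ^ p := by
      have h4 : F.card ≤ p := (card_le_univ F).trans (by omega)
      exact_mod_cast h4.trans Nat.lt_two_pow_self.le
    calc (F.card : ℝ) ^ (p : ℝ)⁻¹ ≤ ((2 : ℝ) ^ p) ^ (p : ℝ)⁻¹ :=
          Real.rpow_le_rpow (Nat.cast_nonneg _) this (by positivity)
      _ = 2 := Real.pow_rpow_inv_natCast (by norm_num) (by omega)
  rw [h1, h2] at h
  exact h.trans (mul_le_mul_of_nonneg_right h3 (pw_nonneg hM _))

/-- the loads after routing along `P` -/
def bump (load : E → ℕ) (P : Finset E) : E → ℕ := fun e => load e + if e ∈ P then 1 else 0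

theorem len_bump (load : E → ℕ) (P : Finset E) :
    len (wt (bump load P)) univ = len (wt load) univ + len (wt load) P := by
  have : len (wt load) P = ∑ e, if e ∈ P then wt load e else 0 := by
    rw [sum_ite_mem, univ_inter, len]
  rw [this, len, len, ← sum_add_distrib]
  refine sum_congr rfl fun e _ => ?_
  unfold wt bump
  split_ifs <;> simp [pow_succ, mul_two]

theorem sum_bump (load : E → ℕ) (P : Finset E) :
    ∑ e, bump load P e = ∑ e, load e + P.card := by
  simp [bump, sum_add_distrib]

theorem Inv.ip_bv_le (hI : Inv src tgt F sig M load) (hc : Conn src tgt)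
    (hE : 0 < Fintype.card E) (u v : V) :
    ((Fintype.card E : ℝ) + 1) * ip M (bv u v) (bv u v) ≤ 1 := by
  have hm : (0 : ℝ) < Fintype.card E := by exact_mod_cast hE
  have : ip M (bv u v) (bv u v) ≤ 1 / (Fintype.card E + 1) := by
    refine ip_le_of hI.pd _ (by positivity) fun x => ?_
    rw [bv_dot]
    refine (hc.sq_sub_le x u v).trans ?_
    have h1 := hI.low x
    rw [c0] at h1
    push_cast at h1
    rw [div_mul_eq_mul_div, le_div_iff₀ (by positivity)]
    linarith
  rwa [le_div_iff₀ (by positivity), mul_comm] at this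

/-- one step of the loop -/
theorem Inv.step (hI : Inv src tgt F sig M load) (hc : Conn src tgt) (hE : 0 < Fintype.card E)
    (hsig : 0 < sig) (hW : len (wt load) univ < Fintype.card E * 2 ^ c0 (Fintype.card E))
    {P : Finset E} {u v : V} (hP : Joins src tgt P u v)
    (hv : pw src tgt F M (Fintype.card E + 2) * len (wt load) P <
      yv src tgt F M (Fintype.card E) u v * sig * len (wt load) univ) :
    Inv src tgt F sig (M + vecMulVec (bv u v) (bv u v)) (bump load P) ∧ P.Nonempty := by
  have hM := hI.pd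
  have hM' := posDef_add_vecMulVec hM (bv u v)
  have hm : (0 : ℝ) < Fintype.card E := by exact_mod_cast hE
  have hWm : (Fintype.card E : ℝ) ≤ len (wt load) univ := by exact_mod_cast card_le_len load
  have hW0 : (0 : ℝ) < len (wt load) univ := hm.trans_le hWm
  have huv : u ≠ v := by
    rintro rfl
    rw [yv_self] at hv
    have := pw_nonneg (src := src) (tgt := tgt) (F := F) hM (Fintype.card E + 2)
    have : 0 ≤ pw src tgt F M (Fintype.card E + 2) * len (wt load) P := by positivity
    linarith
  refine ⟨⟨hM', fun x => ?_, fun S => ?_, ?_, ?_⟩, hP.nonempty huv⟩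
  · rw [qf_add, qf_vecMulVec]
    have := hI.low x
    nlinarith [sq_nonneg (bv u v ⬝ᵥ x)]
  · rw [qf_add, qf_vecMulVec, bv_dot, ind_sub_sq]
    have h1 := hI.cut S
    have h2 : ∑ e ∈ cutEdges src tgt univ S, ((c0 (Fintype.card E) : ℝ) + bump load P e) =
        ∑ e ∈ cutEdges src tgt univ S, ((c0 (Fintype.card E) : ℝ) + load e) +
          ∑ e ∈ cutEdges src tgt univ S, (if e ∈ P then (1 : ℝ) else 0) := by
      rw [← sum_add_distrib]
      refine sum_congr rfl fun e _ => ?_
      unfold bump
      split_ifs <;> simp [add_assoc]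
    rw [h2]
    refine add_le_add h1 ?_
    split_ifs with h
    · have : (cutEdges src tgt P S).Nonempty := by
        rcases h with h | h
        · exact hP S h.1 h.2
        · exact hP.symm S h.2 h.1
      obtain ⟨e, he⟩ := this
      rw [mem_cutEdges] at he
      have := single_le_sum (f := fun e => if e ∈ P then (1 : ℝ) else 0)
        (s := cutEdges src tgt univ S) (fun e _ => by split_ifs <;> norm_num)
        (mem_cutEdges.2 ⟨mem_univ e, he.2⟩)
      simpa [he.1] using this
    · exact sum_nonneg fun e _ => by split_ifs <;> norm_num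
  · set W : ℝ := ((len (wt load) univ : ℕ) : ℝ) with hWdef
    set x : ℝ := len (wt load) P / W with hx
    have hx0 : 0 ≤ x := by positivity
    set Φ := phi src tgt F M
    set Φ' := phi src tgt F (M + vecMulVec (bv u v) (bv u v))
    have hΦ : 0 ≤ Φ := phi_nonneg hM
    have hΦ' : 0 ≤ Φ' := phi_nonneg hM'
    set y := Φ * x / (8 * sig) with hy
    have hy0 : 0 ≤ y := by positivity
    have hS := pw_nonneg (src := src) (tgt := tgt) (F := F) hM (Fintype.card E + 1)
    have h1 := pw_update (src := src) (tgt := tgt) (F := F) hM (Fintype.card E) u v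
      (hI.ip_bv_le hc hE u v)
    have h2 := pw_mul_phi_le (src := src) (tgt := tgt) (F := F) hM
    have h3 : pw src tgt F M (Fintype.card E + 2) * x ≤
        yv src tgt F M (Fintype.card E) u v * sig := by
      rw [hx, ← mul_div_assoc, div_le_iff₀ hW0]; exact hv.le
    have h4 : 4 * (pw src tgt F M (Fintype.card E + 1) * y) ≤
        yv src tgt F M (Fintype.card E) u v := by
      have h5 : pw src tgt F M (Fintype.card E + 1) * Φ * x ≤
          2 * pw src tgt F M (Fintype.card E + 2) * x := by gcongr
      rw [hy, ← mul_div_assoc, ← mul_div_assoc, div_le_iff₀ (by positivity)]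
      nlinarith
    have h6 : Φ' ^ (Fintype.card E + 1) ≤
        Φ ^ (Fintype.card E + 1) * (1 - (Fintype.card E + 1) * y) := by
      rw [phi_pow hM', phi_pow hM]
      nlinarith
    have h7 : Φ' * (1 + y) ≤ Φ := by
      refine le_of_pow_le_pow_left₀ (Nat.succ_ne_zero (Fintype.card E)) hΦ ?_
      have hb := one_add_mul_le_pow (a := -(y / (1 + y)))
        (by have : y / (1 + y) ≤ 1 := div_le_one_of_le₀ (by linarith) (by linarith); linarith)
        (Fintype.card E + 1)
      have h8 : (1 : ℝ) + -(y / (1 + y)) = (1 + y)⁻¹ := by field_simp; ring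
      have h9 : y / (1 + y) ≤ y := div_le_self hy0 (by linarith)
      rw [h8] at hb
      push_cast at hb
      have h10 : 1 - (Fintype.card E + 1) * y ≤ (1 + y)⁻¹ ^ (Fintype.card E + 1) := by nlinarith
      have h11 : Φ' ^ (Fintype.card E + 1) ≤
          Φ ^ (Fintype.card E + 1) * (1 + y)⁻¹ ^ (Fintype.card E + 1) :=
        h6.trans (by gcongr)
      calc (Φ' * (1 + y)) ^ (Fintype.card E + 1)
          = Φ' ^ (Fintype.card E + 1) * (1 + y) ^ (Fintype.card E + 1) := mul_pow _ _ _
        _ ≤ Φ ^ (Fintype.card E + 1) * (1 + y)⁻¹ ^ (Fintype.card E + 1) *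
            (1 + y) ^ (Fintype.card E + 1) := by gcongr
        _ = Φ ^ (Fintype.card E + 1) := by
            rw [mul_assoc, ← mul_pow, inv_mul_cancel₀ (by linarith), one_pow, mul_one]
    have h12 : ((len (wt (bump load P)) univ : ℕ) : ℝ) / Fintype.card E =
        W / Fintype.card E * (1 + x) := by
      rw [len_bump, hx]; push_cast; rw [← hWdef]; field_simp
    have h13 : Real.log (W / Fintype.card E * (1 + x)) ≤ Real.log (W / Fintype.card E) + x := by
      rw [Real.log_mul (by positivity) (by positivity)]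
      have := Real.log_le_sub_one_of_pos (x := 1 + x) (by positivity)
      linarith
    have h14 : 0 ≤ Real.log (W / Fintype.card E) :=
      Real.log_nonneg ((one_le_div hm).2 hWm)
    have h15 := hI.pot
    rw [h12]
    have h16 : Φ * x = 8 * sig * y := by rw [hy]; field_simp
    have h17 : Φ' * (Real.log (W / Fintype.card E) + x) * (1 + y) ≤ 8 * sig * (1 + y) :=
      calc Φ' * (Real.log (W / Fintype.card E) + x) * (1 + y)
          = Φ' * (1 + y) * (Real.log (W / Fintype.card E) + x) := by ring
        _ ≤ Φ * (Real.log (W / Fintype.card E) + x) := by gcongr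
        _ ≤ 8 * sig * (1 + y) := by
            change Φ * Real.log (W / Fintype.card E) ≤ _ at h15
            nlinarith
    have h18 := le_of_mul_le_mul_right h17 (by linarith)
    exact (mul_le_mul_of_nonneg_left h13 hΦ').trans h18
  · rw [len_bump]
    have : len (wt load) P ≤ len (wt load) univ := sum_le_sum_of_subset (subset_univ P)
    omega

theorem wt_le_len (load : E → ℕ) (e : E) : 2 ^ load e ≤ len (wt load) univ :=
  single_le_sum (f := wt load) (fun _ _ => Nat.zero_le _) (mem_univ e)

/-- while the loop runs the total load is bounded -/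
theorem sum_load_le (hW : len (wt load) univ < Fintype.card E * 2 ^ c0 (Fintype.card E)) :
    ∑ e, load e ≤ Fintype.card E * (c0 (Fintype.card E) + Fintype.card E) := by
  rw [← card_univ, ← smul_eq_mul]
  refine sum_le_card_nsmul _ _ _ fun e _ => ?_
  rw [card_univ]
  have h1 := wt_le_len load e
  have h2 : Fintype.card E ≤ 2 ^ Fintype.card E := Nat.lt_two_pow_self.le
  have h3 : 2 ^ load e < 2 ^ (c0 (Fintype.card E) + Fintype.card E) := by
    rw [pow_add, mul_comm]
    exact (h1.trans_lt hW).trans_le (Nat.mul_le_mul_right _ h2)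
  exact ((Nat.pow_lt_pow_iff_right (by norm_num)).1 h3).le

/-- the good outcome -/
theorem Inv.good (hI : Inv src tgt F sig M load) (hE : 0 < Fintype.card E) (hsig : 0 < sig)
    (hW : Fintype.card E * 2 ^ c0 (Fintype.card E) ≤ len (wt load) univ) :
    Good src tgt F (35 * sig) ((3 * c0 (Fintype.card E) : ℝ)⁻¹ • M) := by
  have hm : (0 : ℝ) < Fintype.card E := by exact_mod_cast hE
  have hc0 : (0 : ℝ) < c0 (Fintype.card E) := by unfold c0; positivity
  refine ⟨posDef_smul hI.pd (by positivity), fun S => ⟨S.card / Fintype.card V, ?_⟩,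
    fun e he => ?_⟩
  · rw [qf_smul, inv_mul_le_iff₀ (by positivity)]
    refine (hI.cut S).trans ?_
    rw [mul_comm, ← nsmul_eq_mul]
    refine sum_le_card_nsmul _ _ _ fun e _ => ?_
    have h1 := (wt_le_len load e).trans hI.tot
    have h2 : Fintype.card E ≤ 2 ^ Fintype.card E := Nat.lt_two_pow_self.le
    have h3 : 2 ^ load e ≤ 2 ^ (c0 (Fintype.card E) + (Fintype.card E + 1)) := by
      rw [pow_add, pow_succ]
      refine h1.trans ?_
      have := Nat.mul_le_mul_right (2 ^ c0 (Fintype.card E)) h2
      nlinarith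
    have h4 := (Nat.pow_le_pow_iff_right (by norm_num)).1 h3
    have h5 : Fintype.card E + 1 ≤ c0 (Fintype.card E) := by unfold c0; nlinarith
    have h6 : load e ≤ 2 * c0 (Fintype.card E) := by omega
    have h7 : (load e : ℝ) ≤ 2 * c0 (Fintype.card E) := by exact_mod_cast h6
    linarith
  · rw [ip_smul_self hI.pd (by positivity), div_inv_eq_mul]
    have h1 := res_le_phi (src := src) (tgt := tgt) hI.pd he
    have h2 := hI.pot
    have h3 : (2 : ℝ) ^ c0 (Fintype.card E) ≤ len (wt load) univ / Fintype.card E := by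
      rw [le_div_iff₀ hm, mul_comm]; exact_mod_cast hW
    have h4 : c0 (Fintype.card E) * Real.log 2 ≤
        Real.log (len (wt load) univ / Fintype.card E) := by
      rw [← Real.log_pow]; exact Real.log_le_log (by positivity) h3
    have h5 := Real.log_two_gt_d9
    have h6 := phi_nonneg (src := src) (tgt := tgt) (F := F) hI.pd
    have h7 : phi src tgt F M * (c0 (Fintype.card E) * 0.6931471803) ≤ 8 * sig :=
      le_trans (by gcongr; exact le_trans (by gcongr) h4) h2
    change res src tgt M e * _ ≤ _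
    have h8 : res src tgt M e * c0 (Fintype.card E) ≤ phi src tgt F M * c0 (Fintype.card E) := by
      gcongr
    nlinarith

/-- the rounded lengths of the certificate -/
def rlen (load : E → ℕ) (e : E) : ℕ := Fintype.card E * 2 ^ load e / len (wt load) univ + 1

theorem bv_ne_zero {u v : V} (h : u ≠ v) : bv u v ≠ 0 := fun h0 => by
  have := congrFun h0 u
  simp [bv, h] at this

/-- the certificate -/
theorem cert_of (hM : M.PosDef) (hne : ∀ e, src e ≠ tgt e) (hF : F.Nonempty) (hsig : 0 < sig)
    {P : V → V → Finset E} (hP : ∀ u v, Best src tgt (wt load) (P u v) u v)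
    (hv : ∀ u v, yv src tgt F M (Fintype.card E) u v * sig * len (wt load) univ ≤
      pw src tgt F M (Fintype.card E + 2) * len (wt load) (P u v)) :
    Cert src tgt F sig (rlen load) := by
  obtain ⟨e0, he0⟩ := hF
  have : Nonempty E := ⟨e0⟩
  have hE : 0 < Fintype.card E := Fintype.card_pos
  have hm : (0 : ℝ) < Fintype.card E := by exact_mod_cast hE
  have hWn : 0 < len (wt load) univ := hE.trans_le (card_le_len load)
  have hW0 : (0 : ℝ) < len (wt load) univ := by exact_mod_cast hWn
  set S := pw src tgt F M (Fintype.card E + 2) with hS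
  have hS0 : 0 < S := sum_pos (fun e _ => pow_pos (ip_pos hM (bv_ne_zero (hne e))) _) ⟨e0, he0⟩
  set W : ℝ := ((len (wt load) univ : ℕ) : ℝ) with hW
  set X : V → E → ℝ := fun u f => if f ∈ F then
    √(sig * Fintype.card E / S * res src tgt M f ^ Fintype.card E) *
      (M⁻¹ *ᵥ be src tgt f) u else 0 with hX
  have hXsq : ∀ u v f, (X u f - X v f) ^ 2 = if f ∈ F then sig * Fintype.card E / S *
      (res src tgt M f ^ Fintype.card E * ip M (be src tgt f) (bv u v) ^ 2) else 0 := by
    intro u v f
    simp only [hX]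
    split_ifs with hf
    · have := res_nonneg (src := src) (tgt := tgt) hM f
      rw [← mul_sub, mul_pow, Real.sq_sqrt (by positivity), ip_comm hM, ip, bv_dot]; ring
    · simp
  refine ⟨?_, fun u v => Fintype.card E / W * len (wt load) (P u v), X, fun u => ?_,
    fun u v => ?_, fun u v w => ?_, fun e => ?_, fun u v => ?_, ?_⟩
  · simp only [rlen, sum_add_distrib, sum_const, card_univ, smul_eq_mul, mul_one]
    have h1 : (∑ e, Fintype.card E * 2 ^ load e / len (wt load) univ) * len (wt load) univ ≤
        Fintype.card E * len (wt load) univ := by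
      rw [sum_mul]
      conv_rhs => rw [len, mul_sum]
      exact sum_le_sum fun e _ => Nat.div_mul_le_self _ _
    have := Nat.le_of_mul_le_mul_right h1 hWn
    omega
  · have := (hP u u).2 ∅ (joins_self _ _)
    simp only [len, sum_empty, nonpos_iff_eq_zero] at this
    simp [len, this]
  · have h1 := (hP u v).2 _ (hP v u).1.symm
    have h2 := (hP v u).2 _ (hP u v).1.symm
    simp only [le_antisymm h1 h2]
  · have h1 := ((hP u w).2 _ ((hP u v).1.trans (hP v w).1)).trans (len_union_le _ _ _)
    have h2 : (len (wt load) (P u w) : ℝ) ≤ len (wt load) (P u v) + len (wt load) (P v w) := by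
      exact_mod_cast h1
    simp only
    rw [← mul_add]; gcongr
  · have h1 := (hP (src e) (tgt e)).2 _ (joins_edge e)
    simp only [len, sum_singleton, wt] at h1
    have h2 : (len (wt load) (P (src e) (tgt e)) : ℝ) ≤ 2 ^ load e := by exact_mod_cast h1
    have h3 : Fintype.card E * 2 ^ load e ≤ rlen load e * len (wt load) univ := by
      have := Nat.lt_div_mul_add (a := Fintype.card E * 2 ^ load e) hWn
      rw [rlen, add_mul, one_mul]; exact this.le
    have h4 : (Fintype.card E : ℝ) * 2 ^ load e ≤ rlen load e * W := by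
      rw [hW]; exact_mod_cast h3
    simp only
    rw [div_mul_eq_mul_div, div_le_iff₀ hW0]
    exact le_trans (by gcongr) h4
  · simp only [hXsq]
    rw [sum_ite_mem, univ_inter, ← mul_sum]
    change _ * yv src tgt F M (Fintype.card E) u v ≤ _
    have h1 := hv u v
    rw [div_mul_eq_mul_div, div_mul_eq_mul_div, div_le_div_iff₀ hS0 hW0]
    nlinarith
  · have : ∑ e ∈ F, (X (src e) e - X (tgt e) e) ^ 2 = sig * Fintype.card E / S * S := by
      rw [hS, pw, mul_sum]
      refine sum_congr rfl fun e he => ?_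
      rw [hXsq, if_pos he]
      change _ * (_ * res src tgt M e ^ 2) = _
      rw [← pow_add]
      rfl
    rw [this, div_mul_cancel₀ _ hS0.ne']

end Crest.Agent.X37.Inner
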